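import Vale.Agent.P088.R2.H968.B.Slot
import Vale.Agent.P088.R2.H222.Inv

/-!
# P088, zone B1: the tensors in the graded classes of one slot

`gc_of_it`: norm bounds of the derivatives give the class on one slot; `met_gc`: the tensor and its
inverse.
-/

open Set Filter
open scoped ContDiff Topology

noncomputable section

set_option linter.unusedSectionVars false

namespace Vale.Agent.P088.R2.H657.B1

open Vale.Agent.P088.R2.H464.B Vale.Agent.P088.R2.H968.B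

section gen

variable {α ι F : Type*} [Fintype ι] [NormedAddCommGroup F] [NormedSpace ℝ F]
  {M : α → ι → F} {U : α → Set F} {hU : ∀ x, IsOpen (U x)}

/-- The norms of the derivatives of a directional derivative. -/
theorem it_D1 (hM : ∀ x i, ∃ c, ‖M x i‖ ≤ c) {h : α → F → ℝ} (sh : (G1 M U hU).Sm h) (i : ι)
    (m : ℕ) (x : α) {w : F} (hw : w ∈ U x) :
    ‖iteratedFDeriv ℝ m (D1 M i h x) w‖ ≤ ‖M x i‖ * ‖iteratedFDeriv ℝ (m + 1) (h x) w‖ := by
  have h1 : ContDiffAt ℝ ∞ (h x) w := (sh x w hw).contDiffAt ((hU x).mem_nhds hw)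
  have h2 : ContDiffAt ℝ ∞ (fderiv ℝ (h x)) w := h1.fderiv_right (m := ∞) le_rfl
  have h3 := norm_iteratedFDeriv_clm_apply_const (c := M x i) (n := m) h2
    (by exact_mod_cast le_top)
  rw [norm_iteratedFDeriv_fderiv] at h3
  exact h3

/-- **The class of one slot from bounds of the derivatives.** -/
theorem gc_of_it (hM : ∃ C, ∀ x i, ‖M x i‖ ≤ C) {A : α → ℝ} (A0 : ∀ x, 0 ≤ A x) :
    ∀ {K : ℕ} {h : α → F → ℝ}, (G1 M U hU).Sm h →
      (∃ C, ∀ m ≤ K, ∀ x, ∀ w ∈ U x, ‖iteratedFDeriv ℝ m (h x) w‖ ≤ C * A x) →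
      (G1 M U hU).Gc K (cp A) h := by
  obtain ⟨B, hB⟩ := hM
  intro K
  induction K with
  | zero =>
    rintro h - ⟨C, hC⟩
    refine ⟨C, fun x w hw => ?_⟩
    have := hC 0 le_rfl x w hw
    rwa [norm_iteratedFDeriv_zero, Real.norm_eq_abs] at this
  | succ K ih =>
    rintro h sh ⟨C, hC⟩
    refine gc_G1 ⟨C, fun x w hw => ?_⟩ fun i => ih (sm_D1 sh i) ⟨|B| * |C|, fun m hm x w hw => ?_⟩
    · have := hC 0 (Nat.zero_le _) x w hw
      rwa [norm_iteratedFDeriv_zero, Real.norm_eq_abs] at this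
    · refine (it_D1 (fun x i => ⟨B, hB x i⟩) sh i m x hw).trans ?_
      have h1 := hC (m + 1) (Nat.succ_le_succ hm) x w hw
      have h2 : C * A x ≤ |C| * A x := mul_le_mul_of_nonneg_right (le_abs_self C) (A0 x)
      calc ‖M x i‖ * ‖iteratedFDeriv ℝ (m + 1) (h x) w‖ ≤ |B| * (|C| * A x) :=
            mul_le_mul ((hB x i).trans (le_abs_self B)) (h1.trans h2) (norm_nonneg _)
              (abs_nonneg _)
        _ = |B| * |C| * A x := by ring

/-- The same for the directional derivatives: only the derivatives of order `≥ 1` are bounded. -/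
theorem gc_D1_of_it (hM : ∃ C, ∀ x i, ‖M x i‖ ≤ C) {A : α → ℝ} (A0 : ∀ x, 0 ≤ A x) {K : ℕ}
    {h : α → F → ℝ} (sh : (G1 M U hU).Sm h)
    (b : ∃ C, ∀ m, 1 ≤ m → m ≤ K + 1 → ∀ x, ∀ w ∈ U x,
      ‖iteratedFDeriv ℝ m (h x) w‖ ≤ C * A x) (i : ι) :
    (G1 M U hU).Gc K (cp A) (D1 M i h) := by
  obtain ⟨C, hC⟩ := b
  obtain ⟨B, hB⟩ := hM
  refine gc_of_it ⟨B, hB⟩ A0 (sm_D1 sh i) ⟨|B| * |C|, fun m hm x w hw => ?_⟩
  refine (it_D1 (fun x i => ⟨B, hB x i⟩) sh i m x hw).trans ?_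
  have h1 := hC (m + 1) (Nat.le_add_left 1 m) (Nat.succ_le_succ hm) x w hw
  have h2 : C * A x ≤ |C| * A x := mul_le_mul_of_nonneg_right (le_abs_self C) (A0 x)
  calc ‖M x i‖ * ‖iteratedFDeriv ℝ (m + 1) (h x) w‖ ≤ |B| * (|C| * A x) :=
        mul_le_mul ((hB x i).trans (le_abs_self B)) (h1.trans h2) (norm_nonneg _)
          (abs_nonneg _)
    _ = |B| * |C| * A x := by ring

/-- Products on one slot. -/
theorem cp_mul {K : ℕ} {A A' : α → ℝ} {f g : α → F → ℝ} (hA : ∀ x, 0 ≤ A x) (hA' : ∀ x, 0 ≤ A' x)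
    (hf : (G1 M U hU).Gc K (cp A) f) (hg : (G1 M U hU).Gc K (cp A') g)
    (sf : (G1 M U hU).Sm f) (sg : (G1 M U hU).Sm g) :
    (G1 M U hU).Gc K (cp fun x => A x * A' x) fun x w => f x w * g x w :=
  (hf.mul hg (fun _ _ x _ _ => hA x) (fun _ _ x _ _ => hA' x) sf sg).mono
    (cv_nn (fun _ _ x _ _ => hA x) fun _ _ x _ _ => hA' x) fun j _ => ⟨(j : ℝ) + 1,
      fun x z _ => by
        unfold cv cp
        rw [Finset.sum_const, Finset.card_range, nsmul_eq_mul]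
        push_cast
        exact le_rfl⟩

/-- Comparison of the sizes. -/
theorem cp_mono {K : ℕ} {A A' : α → ℝ} {f : α → F → ℝ} (hA : ∀ x, 0 ≤ A x)
    (hf : (G1 M U hU).Gc K (cp A) f) {C : ℝ} (h : ∀ x, A x ≤ C * A' x) :
    (G1 M U hU).Gc K (cp A') f :=
  hf.mono (fun _ _ x _ _ => hA x) fun _ _ => ⟨C, fun x _ _ => h x⟩

end gen

section met

open Vale.Agent.P088.LR Vale.Agent.P088.HY Vale.Agent.P088.R2.H222

variable {α : Type*} {n : ℕ}

/-- **The tensor and its inverse on one slot.** -/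
theorem met_gc (s : α → MF n) (M : α → Fin n → V n) (U : α → Set (V n))
    (hU : ∀ x, IsOpen (U x)) (k : α → ℝ) (K : ℕ) (ε : ℝ) (hM : ∃ C, ∀ x i, ‖M x i‖ ≤ C)
    (k0 : ∀ x, 0 ≤ k x) (k1 : ∀ x, k x ≤ 1)
    (ss : ∀ x i j, ContDiff ℝ ∞ fun w => s x w i j)
    (cl : ∃ C, ∀ i j, ∀ m, 1 ≤ m → m ≤ K + 1 → ∀ x, ∀ w ∈ U x,
      ‖iteratedFDeriv ℝ m (fun w => s x w i j) w‖ ≤ C * k x)
    (nd : ∀ x, ∀ w ∈ U x, ∀ i j, |s x w i j - (1 : Matrix (Fin n) (Fin n) ℝ) i j| ≤ ε)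
    (ne : n * ε ≤ 1 / 2) :
    (∀ i j l, (G1 M U hU).Gc K (cp k) (D1 M l fun x w => s x w i j)) ∧
    (∀ i j l, (G1 M U hU).Gc K (cp k) (D1 M l fun x w => (s x w)⁻¹ i j)) ∧
    (∀ i j, (G1 M U hU).Sm fun x w => (s x w)⁻¹ i j) ∧
    (∀ i j, ∀ x, ∀ w ∈ U x, |(s x w)⁻¹ i j| ≤ 2) := by
  have sS : ∀ i j, (G1 M U hU).Sm fun x w => s x w i j := fun i j x => (ss x i j).contDiffOn
  have hd : ∀ x, ∀ w ∈ U x, (s x w).det ≠ 0 := fun x w hw => det_ne (nd x w hw) ne
  have sI : ∀ i j, (G1 M U hU).Sm fun x w => (s x w)⁻¹ i j := fun i j x =>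
    inv_smooth (fun i j => (ss x i j).contDiffOn) (hd x) i j
  have bI : ∀ i j, ∀ x, ∀ w ∈ U x, |(s x w)⁻¹ i j| ≤ 2 := fun i j x w hw =>
    inv_le (nd x w hw) ne i j
  have c1 : ∀ i j l, (G1 M U hU).Gc K (cp k) (D1 M l fun x w => s x w i j) := fun i j l => by
    obtain ⟨C, hC⟩ := cl
    exact gc_D1_of_it hM k0 (sS i j) ⟨C, hC i j⟩ l
  have id : ∀ i j l x, ∀ w ∈ U x, D1 M l (fun x w => (s x w)⁻¹ i j) x w =
      -∑ a, ∑ b, ((s x w)⁻¹ i a * (s x w)⁻¹ b j) * D1 M l (fun x w => s x w a b) x w := by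
    intro i j l x w hw
    show fderiv ℝ (fun w => (s x w)⁻¹ i j) w (M x l) = _
    rw [fderiv_inv (hU x) (fun i j => (ss x i j).contDiffOn) (hd x) hw i j]
    simp only [_root_.neg_apply, _root_.sum_apply, _root_.smul_apply, smul_eq_mul, D1]
  have key : ∀ L ≤ K, ∀ i j, (G1 M U hU).Gc L (cp fun _ => 1) (fun x w => (s x w)⁻¹ i j) ∧
      ∀ l, (G1 M U hU).Gc L (cp k) (D1 M l fun x w => (s x w)⁻¹ i j) := by
    intro L hL
    have step : ∀ L ≤ K, (∀ i j, (G1 M U hU).Gc L (cp fun _ => 1) (fun x w => (s x w)⁻¹ i j)) →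
        ∀ i j l, (G1 M U hU).Gc L (cp k) (D1 M l fun x w => (s x w)⁻¹ i j) := by
      intro L hL h i j l
      have t : ∀ a b, (G1 M U hU).Gc L (cp k) (fun x w =>
          ((s x w)⁻¹ i a * (s x w)⁻¹ b j) * D1 M l (fun x w => s x w a b) x w) := fun a b => by
        have p1 := cp_mul (fun _ => zero_le_one) (fun _ => zero_le_one) (h i a) (h b j) (sI i a)
          (sI b j)
        have p2 := cp_mul (fun _ => by norm_num) k0 p1 ((c1 a b l).le hL)
          ((sI i a).mul (sI b j)) (sm_D1 (sS a b) l)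
        exact cp_mono (C := 1) (fun x => by have := k0 x; positivity) p2 fun x => by
          rw [one_mul, one_mul]
      have st : ∀ a b, (G1 M U hU).Sm (fun x w =>
          ((s x w)⁻¹ i a * (s x w)⁻¹ b j) * D1 M l (fun x w => s x w a b) x w) := fun a b =>
        ((sI i a).mul (sI b j)).mul (sm_D1 (sS a b) l)
      have t2 := Ge.Gc.sum Finset.univ (fun a _ => Ge.Gc.sum Finset.univ (fun b _ => t a b)
        fun b _ => st a b) fun a _ => Ge.Sm.sum Finset.univ fun b _ => st a b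
      have t3 := t2.cmul (Ge.Sm.sum Finset.univ fun a _ => Ge.Sm.sum Finset.univ fun b _ => st a b)
        (fun _ _ x _ _ => k0 x) (-1)
      refine t3.congr fun x w hw => ?_
      rw [id i j l x w hw]
      ring
    have all : ∀ L ≤ K, ∀ i j, (G1 M U hU).Gc L (cp fun _ => 1) (fun x w => (s x w)⁻¹ i j) := by
      intro L
      induction L with
      | zero =>
        intro _ i j
        exact ⟨2, fun x w hw => by
          show |(s x w)⁻¹ i j| ≤ 2 * 1
          rw [mul_one]; exact bI i j x w hw⟩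
      | succ L ih =>
        intro hL i j
        have hL' : L ≤ K := (Nat.le_succ L).trans hL
        refine gc_G1 ⟨2, fun x w hw => ?_⟩ fun l =>
          cp_mono (C := 1) k0 (step L hL' (ih hL') i j l) fun x => by rw [mul_one]; exact k1 x
        show |(s x w)⁻¹ i j| ≤ 2 * 1
        rw [mul_one]; exact bI i j x w hw
    exact fun i j => ⟨all L hL i j, step L hL (all L hL) i j⟩
  exact ⟨c1, fun i j l => (key K le_rfl i j).2 l, sI, bI⟩

end met

end Vale.Agent.P088.R2.H657.B1
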