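import Vale.Agent.P088.R2.H657.B1.In
import Vale.Agent.P088.R2.H464.B.Hyf
import Vale.Agent.P088.R2.H724.B1.Fam

/-!
# P088, zone B1: the tensors of the true weight on helper724's family of cells
-/

open Finset Set Filter
open scoped ContDiff Topology Matrix

noncomputable section

set_option linter.unusedSectionVars false

namespace Vale.Agent.P088.R2.H657.B1

open Vale.Agent.P088.LR Vale.Agent.P088.HY Vale.Agent.P088.HY.T3 Vale.Agent.P088.HY.T4
open Vale.Agent.P088.R2.H31.EP hiding r2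
open Vale.Agent.P088.R2.H464.B Vale.Agent.P088.R2.H968.B
open Vale.Agent.P088.R2.H961.F (CD Gf fe T_q T_qq fe_pos)
open Vale.Agent.P088.R2.H516.B (mu)

section cls

variable {α : Type} {n : ℕ} {c : α → CD n} {q : α → Cst} {d : α → Pk n} {p : α → V n}
  {U : α → Set (V n)} {k : α → ℝ} {L : ℝ} (h : Mq c q d p U k L)

theorem kg_Gm (s : α → MF n) (i j : Fin n) : kg c (fun x => gi (s x)) i j = Gm c s i j := by
  funext x w
  unfold kg Gm
  rw [Matrix.one_apply]
  congr 1
  simp only [Matrix.mul_apply, Matrix.transpose_apply, Finset.sum_mul]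
  rw [Finset.sum_comm]
  exact Finset.sum_congr rfl fun a _ => Finset.sum_congr rfl fun b _ => by ring

include h

/-- The tensor varies little. -/
theorem Mq.s_le (x : α) {w : V n} (hw : w ∈ U x) (i j : Fin n) :
    |(d x).s₁ w i j - (d x).s₁ (p x) i j| ≤ |L| * k x := by
  have hL := h.L0 x w hw
  rcases h.kk x with h1 | h1
  · have hR : 0 < (q x).R := by linarith [h.R1 x]
    have hb : ∀ w, ‖fderiv ℝ (fun x' => (d x).s₁ x' i j) w‖ ≤ (q x).ε / (q x).R := fun w => by
      have h2 := rg_it₁ (h.ok x).rg (h.e0 x) (h.R1 x) i j (m := 1) le_rfl (by norm_num) w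
      rwa [norm_iteratedFDeriv_one] at h2
    have h3 := (convex_univ : Convex ℝ (univ : Set (V n))).norm_image_sub_le_of_norm_fderiv_le
      (f := fun x' => (d x).s₁ x' i j) (𝕜 := ℝ) (C := (q x).ε / (q x).R)
      (fun y _ => ((h.ok x).rg.sm₁ i j).differentiable (by simp) y) (fun y _ => hb y)
      (mem_univ (p x)) (mem_univ w)
    rw [Real.norm_eq_abs] at h3
    refine h3.trans ?_
    rw [mul_comm]
    exact mul_le_mul (hL.trans (le_abs_self L)) h1 (div_nonneg (h.e0 x) hR.le) (abs_nonneg _)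
  · rw [((h.ok x).rg.of w (h1.1 w hw)).1, ((h.ok x).rg.of (p x) h1.2).1, sub_self, abs_zero]
    exact mul_nonneg (abs_nonneg L) (h.k0 x)

theorem Mq.N_le (x : α) (i j : Fin n) : |(c x).N i j| ≤ 2 := by
  have e1 : gi (d x).s₁ (p x) = (c x).Nᵀ * (c x).N := by
    unfold gi
    refine Matrix.inv_eq_right_inv ?_
    rw [← h.fr x, Matrix.mul_assoc, ← Matrix.mul_assoc (c x).Mᵀ, ← Matrix.transpose_mul,
      (c x).nm, Matrix.transpose_one, Matrix.one_mul, mn]
  have hn : (n : ℝ) * (1 / (2 * n)) ≤ 1 / 2 := by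
    have : (0 : ℝ) < n := by exact_mod_cast i.pos
    refine le_of_eq ?_
    field_simp
  have h1 := (abs_le.1 (Vale.Agent.P088.R2.H222.inv_le (M := (d x).s₁ (p x)) (fun i j =>
    (rg_nd₁ (h.ok x).rg (p x) i j).trans (eps_le h.toMk i x)) hn j j)).2
  have h2 : gi (d x).s₁ (p x) j j = ∑ i, (c x).N i j * (c x).N i j := by
    rw [e1, Matrix.mul_apply]
    rfl
  have h3 : (c x).N i j * (c x).N i j ≤ ∑ i, (c x).N i j * (c x).N i j :=
    Finset.single_le_sum (f := fun i => (c x).N i j * (c x).N i j)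
      (fun i _ => mul_self_nonneg _) (Finset.mem_univ i)
  have h4 : gi (d x).s₁ (p x) j j ≤ 2 := h1
  refine abs_le_of_sq_le_sq ?_ (by norm_num)
  nlinarith

variable (hU : ∀ x, IsOpen (U x)) {K : ℕ}

/-- **The metric, in the form of `Hq`.** -/
theorem Mq.hk (hK : K + 1 ≤ 12) (i j : Fin n) :
    (G1 (Mc c) U hU).Gc (K + 1) (cp k) (kg c (fun x => gi (d x).s₁) i j) := by
  rw [kg_Gm]
  exact h.gc_Gm hU hK i j

theorem Mq.sk (i j : Fin n) : (G1 (Mc c) U hU).Sm (kg c (fun x => gi (d x).s₁) i j) := by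
  rw [kg_Gm]
  exact h.sm_Gm hU i j

theorem Mq.gc_s (hK : K + 1 ≤ 12) (i j : Fin n) :
    (G1 (Mc c) U hU).Gc (K + 1) (cp k)
      (fun x w => (d x).s₁ w i j - (d x).s₁ (p x) i j) := by
  refine gc_G1 ⟨|L|, fun x w hw => h.s_le x hw i j⟩ fun l => ?_
  refine ((h.toMk.met₁ hU hK).1 i j l).congr fun x w _ => ?_
  show fderiv ℝ (fun w => (d x).s₁ w i j - (d x).s₁ (p x) i j) w _ =
    fderiv ℝ (fun w => (d x).s₁ w i j) w _
  rw [fderiv_sub_const]
  rfl

theorem Mq.sm_s (i j : Fin n) : (G1 (Mc c) U hU).Sm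
    (fun x w => (d x).s₁ w i j - (d x).s₁ (p x) i j) :=
  (h.toMk.sm₁ hU i j).sub (Ge.Sm.const _)

theorem Mq.sg_zero (x : α) (i j : Fin n) :
    (∑ a, ∑ b, (c x).N i a * (c x).N j b * (d x).s₁ (p x) a b) =
      if i = j then (1 : ℝ) else 0 := by
  have h1 : (c x).N * (d x).s₁ (p x) * (c x).Nᵀ = 1 := by
    rw [← h.fr x, ← Matrix.mul_assoc, (c x).nm, Matrix.one_mul, ← Matrix.transpose_mul, (c x).nm,
      Matrix.transpose_one]
  have h2 := congrFun (congrFun h1 i) j
  rw [Matrix.one_apply] at h2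
  rw [← h2, Matrix.mul_apply, Finset.sum_comm]
  refine Finset.sum_congr rfl fun b _ => ?_
  rw [Matrix.mul_apply, Finset.sum_mul]
  exact Finset.sum_congr rfl fun a _ => by rw [Matrix.transpose_apply]; ring

theorem Mq.NN_gc (K : ℕ) (i j a b : Fin n) : (G1 (Mc c) U hU).Gc K (cp fun _ => 1)
    fun x _ => (c x).N i a * (c x).N j b :=
  Ge.Gc.const K _ (fun x => (c x).N i a * (c x).N j b) ⟨4, fun x w _ => by
    show |(c x).N i a * (c x).N j b| ≤ 4 * 1
    rw [abs_mul]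
    have h1 := h.N_le x i a
    have h2 := h.N_le x j b
    have h3 := abs_nonneg ((c x).N i a)
    have h4 := abs_nonneg ((c x).N j b)
    nlinarith⟩

/-- Two frame vectors on a tensor. -/
theorem Mq.NN_sum {A : α → ℝ} (A0 : ∀ x, 0 ≤ A x) {f : Fin n → Fin n → α → V n → ℝ}
    (hf : ∀ a b, (G1 (Mc c) U hU).Gc K (cp A) (f a b))
    (sf : ∀ a b, (G1 (Mc c) U hU).Sm (f a b)) (i j : Fin n) :
    (G1 (Mc c) U hU).Gc K (cp A)
      fun x w => ∑ a, ∑ b, ((c x).N i a * (c x).N j b) * f a b x w := by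
  have t : ∀ a b, (G1 (Mc c) U hU).Gc K (cp A)
      fun x w => ((c x).N i a * (c x).N j b) * f a b x w := fun a b =>
    cp_mono (C := 1) (fun x => by have := A0 x; positivity)
      (cp_mul (fun _ => zero_le_one) A0 (h.NN_gc hU K i j a b) (hf a b) (Ge.Sm.const _) (sf a b))
      fun x => le_of_eq (by ring)
  have st : ∀ a b, (G1 (Mc c) U hU).Sm
      fun x w => ((c x).N i a * (c x).N j b) * f a b x w := fun a b =>
    (Ge.Sm.const _).mul (sf a b)
  exact Ge.Gc.sum Finset.univ (fun a _ => Ge.Gc.sum Finset.univ (fun b _ => t a b)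
    fun b _ => st a b) fun a _ => Ge.Sm.sum Finset.univ fun b _ => st a b

omit h in
theorem NN_sm {f : Fin n → Fin n → α → V n → ℝ}
    (sf : ∀ a b, (G1 (Mc c) U hU).Sm (f a b)) (i j : Fin n) :
    (G1 (Mc c) U hU).Sm
      fun x w => ∑ a, ∑ b, ((c x).N i a * (c x).N j b) * f a b x w :=
  Ge.Sm.sum Finset.univ fun a _ => Ge.Sm.sum Finset.univ fun b _ =>
    (Ge.Sm.const fun x => (c x).N i a * (c x).N j b).mul (sf a b)

theorem Mq.sg_eq (i j : Fin n) (x : α) (w : V n) : sg c (fun x => (d x).s₁) i j x w =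
    ∑ a, ∑ b, ((c x).N i a * (c x).N j b) * ((d x).s₁ w a b - (d x).s₁ (p x) a b) := by
  show (∑ a, ∑ b, (c x).N i a * (c x).N j b * (d x).s₁ w a b) - (if i = j then (1 : ℝ) else 0) = _
  rw [← h.sg_zero x i j, ← Finset.sum_sub_distrib]
  refine Finset.sum_congr rfl fun a _ => ?_
  rw [← Finset.sum_sub_distrib]
  exact Finset.sum_congr rfl fun b _ => by ring

/-- **The first tensor, in the form of `Hq`.** -/
theorem Mq.h1 (hK : K + 1 ≤ 12) (i j : Fin n) :
    (G1 (Mc c) U hU).Gc (K + 1) (cp k) (sg c (fun x => (d x).s₁) i j) :=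
  (h.NN_sum hU h.k0 (h.gc_s hU hK) (h.sm_s hU) i j).congr fun x w _ => h.sg_eq i j x w

theorem Mq.s1 (i j : Fin n) : (G1 (Mc c) U hU).Sm (sg c (fun x => (d x).s₁) i j) :=
  (NN_sm (c := c) hU (h.sm_s hU) i j).congr fun x w _ => h.sg_eq i j x w

theorem Mq.s2 (i j : Fin n) : (G1 (Mc c) U hU).Sm (sg c (fun x => (d x).s₂) i j) :=
  ((NN_sm (c := c) hU (fun a b => h.toMk.sm₂ hU a b) i j).sub
    (Ge.Sm.const fun _ => if i = j then (1 : ℝ) else 0)).congr fun x w _ => by
    rfl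

/-- **The difference of the tensors, in the form of `Hq`.** -/
theorem Mq.h2 (hK : K ≤ 12) {A : α → ℝ} (A0 : ∀ x, 0 ≤ A x)
    (hA : ∃ C, ∀ x, ∀ w ∈ U x, (q x).ε * min 1 (Real.exp
      (-(100 * lv n (q x).σ (q x).R (d x).kap (d x).Gs w))) ≤ C * A x) (i j : Fin n) :
    (G1 (Mc c) U hU).Gc K (cp A) fun x w =>
      sg c (fun x => (d x).s₁) i j x w - sg c (fun x => (d x).s₂) i j x w := by
  have sd : ∀ a b, (G1 (Mc c) U hU).Sm fun x w => (d x).s₂ w a b - (d x).s₁ w a b := fun a b =>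
    (h.toMk.sm₂ hU a b).sub (h.toMk.sm₁ hU a b)
  have t := (h.NN_sum hU A0 (fun a b => h.toMk.dif hU hK A0 hA a b) sd i j).cmul
    (NN_sm (c := c) hU sd i j) (fun _ _ x _ _ => A0 x) (-1)
  refine t.congr fun x w _ => ?_
  show ((∑ a, ∑ b, (c x).N i a * (c x).N j b * (d x).s₁ w a b) - (if i = j then (1 : ℝ) else 0)) -
    ((∑ a, ∑ b, (c x).N i a * (c x).N j b * (d x).s₂ w a b) - (if i = j then (1 : ℝ) else 0)) =
    -1 * ∑ a, ∑ b, ((c x).N i a * (c x).N j b) * ((d x).s₂ w a b - (d x).s₁ w a b)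
  rw [sub_sub_sub_cancel_right, ← Finset.sum_sub_distrib, Finset.mul_sum]
  refine Finset.sum_congr rfl fun a _ => ?_
  rw [← Finset.sum_sub_distrib, Finset.mul_sum]
  exact Finset.sum_congr rfl fun b _ => by ring

end cls

/-! ## The family of helper724 -/

section ix

open Vale.Agent.P088.R2.H724.B1

variable {n : ℕ} {A : ℝ} {T : Cst → ℝ → Prop} {U : Ix n A T → Set (V n)}

/-- **The hypotheses hold on the family**, for each `U x` in the cube of half side `3 A / 2 + 1`. -/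
theorem mq_ix (hA : 0 ≤ A) (hs : ∀ x, ∀ w ∈ U x, ∀ j, |w j - x.p j| ≤ 3 / 2 * A + 1) :
    Mq (fun x : Ix n A T => x.c) (fun x => x.q) (fun x => x.d) (fun x => x.p) U kp
      (3 / 2 * A + 1) where
  ok x := x.ok
  R1 x := by linarith [x.th.R1]
  e0 x := x.te.ε0.le
  e1 x := x.te.ε1
  en x := x.te.nε
  k0 x := by
    have h1 : 0 ≤ x.q.ε / x.q.R := div_nonneg x.te.ε0.le (by linarith [x.th.R1])
    have h2 : 0 ≤ min (1 / 2) (Real.exp (-(2 * x.d.l x.p))) :=
      le_min (by norm_num) (Real.exp_pos _).le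
    show 0 ≤ kq x.q x.d A x.p
    unfold kq
    split <;> linarith
  k1 x := by
    have hR : (0 : ℝ) < x.q.R := by linarith [x.th.R1]
    have h1 : x.q.ε / x.q.R ≤ 1 / 2 := by
      rw [div_le_iff₀ hR]
      linarith [x.th.R1, x.te.ε1]
    have h2 : min (1 / 2) (Real.exp (-(2 * x.d.l x.p))) ≤ 1 / 2 := min_le_left _ _
    show kq x.q x.d A x.p ≤ 1
    unfold kq
    split <;> linarith
  fr x := x.fr.M
  L0 x w hw := by
    rw [pi_norm_le_iff_of_nonneg (by linarith)]
    intro j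
    rw [Real.norm_eq_abs]
    exact hs x w hw j
  kk x := by
    have h2 : 0 ≤ min (1 / 2) (Real.exp (-(2 * x.d.l x.p))) :=
      le_min (by norm_num) (Real.exp_pos _).le
    have hR : (0 : ℝ) < x.q.R := by linarith [x.th.R1]
    by_cases hF : Flat x.q A x.p
    · right
      have hf : ∀ w : V n, (∀ j, |w j - x.p j| ≤ 3 / 2 * A + 1) →
          w ∉ Eb (0 : V n) (2 * x.q.R) := fun w hw hb => by
        have h3 := hF w hw
        have h4 : HY.sq (w - 0) < (2 * x.q.R) ^ 2 := hb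
        rw [sub_zero] at h4
        rw [Real.lt_sqrt (by linarith)] at h3
        linarith
      exact ⟨fun w hw => hf w (hs x w hw), hf x.p fun j => by
        rw [sub_self, abs_zero]; linarith⟩
    · left
      show x.q.ε / x.q.R ≤ kq x.q x.d A x.p
      unfold kq
      rw [if_neg hF]
      linarith

end ix

end Vale.Agent.P088.R2.H657.B1
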