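import Vale.Agent.P088.R2.H724.B1.Fam

/-!
# P088, zone B1: the size of the difference of the two tensors on a cell
-/

open Finset Set Filter
open scoped ContDiff Topology

noncomputable section

set_option linter.unusedSectionVars false

namespace Vale.Agent.P088.R2.H657.B1

open Vale.Agent.P088.LR Vale.Agent.P088.HY
open Vale.Agent.P088.R2.H31.EP
open Vale.Agent.P088.R2.H464.Cu (mid)
open Vale.Agent.P088.R2.H238.C
open Vale.Agent.P088.R2.H475
open Vale.Agent.P088.R2.H961.F (CD Gf fe T_e fe_pos mu_ge)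
open Vale.Agent.P088.R2.H724.B1
open Vale.Agent.P088.R2.H516.B (mu)

variable {n : ℕ} {A : ℝ} {T : Cst → ℝ → Prop}

open Classical in
/-- The size of `s₁ - s₂` on the cell. -/
def ax (x : Ix n A T) : ℝ := if x.Z.Nonempty then min 1 (Real.exp (-(3 * x.d.l x.p))) else 1

theorem ax_of {x : Ix n A T} (h : x.Z.Nonempty) :
    ax x = min 1 (Real.exp (-(3 * x.d.l x.p))) := by
  unfold ax
  rw [if_pos h]

theorem ax_ne {x : Ix n A T} (h : ¬x.Z.Nonempty) : ax x = 1 := by
  unfold ax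
  rw [if_neg h]

theorem ax_nn (x : Ix n A T) : 0 ≤ ax x := by
  by_cases h : x.Z.Nonempty
  · rw [ax_of h]
    exact le_min zero_le_one (Real.exp_pos _).le
  · rw [ax_ne h]
    exact zero_le_one

theorem ax_le (x : Ix n A T) : ax x ≤ 1 := by
  by_cases h : x.Z.Nonempty
  · rw [ax_of h]
    exact min_le_left _ _
  · rw [ax_ne h]

theorem en_le_n (hn : 1 ≤ n) {v : V n} {B : ℝ} (hB : 0 ≤ B) (h : ∀ j, |v j| ≤ B) :
    √(HY.sq v) ≤ n * B := by
  refine en_le_of_sq (by positivity) ?_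
  have h1 : HY.sq v ≤ ∑ _i : Fin n, B ^ 2 := Finset.sum_le_sum fun i _ =>
    sq_le_sq' (abs_le.1 (h i)).1 (abs_le.1 (h i)).2
  rw [Finset.sum_const, Finset.card_univ, Fintype.card_fin, nsmul_eq_mul] at h1
  have hn' : (1 : ℝ) ≤ n := by exact_mod_cast hn
  have h2 : (n : ℝ) * B ^ 2 ≤ n * (n * B ^ 2) :=
    mul_le_mul_of_nonneg_left (le_mul_of_one_le_left (sq_nonneg B) hn') (by linarith)
  calc HY.sq v ≤ n * B ^ 2 := h1
    _ ≤ n * (n * B ^ 2) := h2
    _ = (n * B) ^ 2 := by ring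

section lev

variable (x : Ix n A T) (hn : 1 ≤ n) (hA : 0 ≤ A) (hR : n * (3 * A + 1) ≤ x.q.R / 2)
  {z : VV n} (hz : z ∈ x.Z)
include hn hA hR hz

/-- Levels near the cell. -/
theorem lev_near {w : V n} (hw : ∀ j, |w j - x.p j| ≤ 3 / 2 * A + 1) :
    th1 x.q.σ ≤ HY.sq (ww n x.q w) ∧
      |x.d.l w - x.d.l (mid z)| ≤ 101 / 100 * (n * (3 * A + 1)) := by
  have hm : mid z ∈ Gp x.q x.d := hz.1.1.2.2.1
  have hc : ∀ j, |mid z j - x.p j| < 3 / 2 * A := hz.2
  have h1 : √(HY.sq (w - mid z)) ≤ n * (3 * A + 1) := by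
    refine en_le_n hn (by linarith) fun j => ?_
    have h2 := abs_sub_abs_le_abs_sub (w j - x.p j) (mid z j - x.p j)
    have h3 : |w j - mid z j| ≤ |w j - x.p j| + |mid z j - x.p j| := by
      have e : w j - mid z j = (w j - x.p j) + -(mid z j - x.p j) := by ring
      rw [e]
      refine (abs_add_le _ _).trans ?_
      rw [abs_neg]
    have h4 := hw j
    have h5 := hc j
    show |w j - mid z j| ≤ 3 * A + 1
    linarith
  exact ⟨near_th x.ok x.th hm (h1.trans hR),
    (l_lip x.ok x.th hm (h1.trans hR)).trans (mul_le_mul_of_nonneg_left h1 (by norm_num))⟩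

theorem lev_p : |x.d.l x.p - x.d.l (mid z)| ≤ 101 / 100 * (n * (3 * A + 1)) :=
  (lev_near x hn hA hR hz fun j => by rw [sub_self, abs_zero]; linarith).2

end lev

theorem min_exp {a b c : ℝ} (hb : 0 ≤ b) (h : c ≤ a + b) :
    min 1 (Real.exp (-(100 * a))) ≤ Real.exp (3 * b) * min 1 (Real.exp (-(3 * c))) := by
  have h1 : min 1 (Real.exp (-(100 * a))) ≤ Real.exp (3 * b) * Real.exp (-(3 * c)) := by
    rw [← Real.exp_add]
    rcases le_total 0 a with h2 | h2
    · exact (min_le_right _ _).trans (Real.exp_le_exp.2 (by linarith))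
    · exact (min_le_left _ _).trans (Real.one_le_exp (by linarith))
  have h2 : min 1 (Real.exp (-(100 * a))) ≤ Real.exp (3 * b) * 1 := by
    rw [mul_one]
    exact (min_le_left _ _).trans (Real.one_le_exp (by linarith))
  rcases min_choice (1 : ℝ) (Real.exp (-(3 * c))) with e | e
  · rw [e]; exact h2
  · rw [e]; exact h1

/-- **The size of the difference.** -/
theorem ax_hA (hn : 1 ≤ n) (hA : 0 ≤ A) (hR : ∀ q η, T q η → n * (3 * A + 1) ≤ q.R / 2) :
    ∃ C, ∀ x : Ix n A T, ∀ w : V n, (∀ j, |w j - x.p j| ≤ 3 / 2 * A + 1) →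
      x.q.ε * min 1 (Real.exp (-(100 * lv n x.q.σ x.q.R x.d.kap x.d.Gs w))) ≤ C * ax x := by
  refine ⟨Real.exp (3 * (2 * (101 / 100 * (n * (3 * A + 1))))), fun x w hw => ?_⟩
  have hb : 0 ≤ 101 / 100 * ((n : ℝ) * (3 * A + 1)) := by positivity
  have m0 : 0 ≤ min 1 (Real.exp (-(100 * lv n x.q.σ x.q.R x.d.kap x.d.Gs w))) :=
    le_min zero_le_one (Real.exp_pos _).le
  refine (mul_le_of_le_one_left m0 x.te.ε1).trans ?_
  by_cases h : x.Z.Nonempty
  · obtain ⟨z, hz⟩ := h
    have h1 := lev_near x hn hA (hR _ _ x.t) hz hw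
    have h2 := lev_p x hn hA (hR _ _ x.t) hz
    have e : x.d.l w = lv n x.q.σ x.q.R x.d.kap x.d.Gs w := by
      rw [x.ok.lev.lit]
      exact levG_eq_lv hn x.th.σ0 x.th.σ1 h1.1
    rw [ax_of ⟨z, hz⟩, ← e]
    have h3 := abs_le.1 h1.2
    have h4 := abs_le.1 h2
    exact min_exp (by linarith) (by linarith)
  · rw [ax_ne h, mul_one]
    exact (min_le_left _ _).trans (Real.one_le_exp (by linarith))

/-- **`a ≤ C κ r`.** -/
theorem ax_kr (hn : 1 ≤ n) (hA : 0 ≤ A) (hR : ∀ q η, T q η → n * (3 * A + 1) ≤ q.R / 2) :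
    ∃ C, ∀ x : Ix n A T, ∀ z ∈ x.Z,
      ax x ≤ C * (kp x * H961.F.fr (fun x : Ix n A T => x.c) x z) := by
  refine ⟨2 * Real.exp (101 / 100 * (n * (3 * A + 1)) + 1 / 8), fun x z hz => ?_⟩
  have h2 := abs_le.1 (lev_p x hn hA (hR _ _ x.t) hz)
  have h3 := abs_le.1 (muc_le x.ok (x.d.l (mid z)))
  -- `r`
  have hr : Real.exp (-ff x.q x.d (mid z)) ≤ H961.F.fr (fun x : Ix n A T => x.c) x z := by
    have h5 := er2 (fun x : Ix n A T => x.c) x z
    have h6 : 1 ≤ (mu x.c.T : VV n → ℝ) z := mu_ge (fun x : Ix n A T => x.c) x z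
    have h7 : fe (fun x : Ix n A T => x.c) x z = Real.exp (2 * ff x.q x.d (mid z)) := by
      have h8 : fe (fun x : Ix n A T => x.c) x z =
          x.c.E₀ * Real.exp (2 * x.c.l ((1 / 2 : ℝ) • (z.1 + z.2))) := T_e x.c z
      have h9 : x.c.l ((1 / 2 : ℝ) • (z.1 + z.2)) = ff x.q x.d (mid z) := x.fr.l _ hz.2
      rw [h8, h9, x.fr.e, one_mul]
    rw [h7] at h5
    have h8 : 1 ≤ (Real.exp (ff x.q x.d (mid z)) *
        H961.F.fr (fun x : Ix n A T => x.c) x z) ^ 2 := by
      rw [mul_pow, ← Real.exp_nat_mul]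
      push_cast
      rw [h5]
      exact h6
    have h9 := r_pos (fun x : Ix n A T => x.c) x z
    have h10 : 1 ≤ Real.exp (ff x.q x.d (mid z)) *
        H961.F.fr (fun x : Ix n A T => x.c) x z := by
      by_contra hc
      push Not at hc
      have h11 : 0 ≤ Real.exp (ff x.q x.d (mid z)) *
        H961.F.fr (fun x : Ix n A T => x.c) x z := by positivity
      nlinarith
    rw [Real.exp_neg, inv_le_iff_one_le_mul₀ (Real.exp_pos _), mul_comm]
    exact h10
  have hr' : Real.exp (-(x.d.l x.p + (101 / 100 * (n * (3 * A + 1)) + 1 / 8))) ≤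
      H961.F.fr (fun x : Ix n A T => x.c) x z := by
    refine le_trans (Real.exp_le_exp.2 ?_) hr
    unfold ff
    linarith
  -- `κ`
  have hk : 1 / 2 * min 1 (Real.exp (-(2 * x.d.l x.p))) ≤ kp x := by
    have h4 : 0 ≤ x.q.ε / x.q.R := div_nonneg x.te.ε0.le (by linarith [x.th.R1])
    have h5 : min (1 / 2) (Real.exp (-(2 * x.d.l x.p))) ≤ kp x := by
      show _ ≤ kq x.q x.d A x.p
      unfold kq
      split <;> linarith
    refine le_trans (le_min ?_ ?_) h5
    · have := min_le_left (1 : ℝ) (Real.exp (-(2 * x.d.l x.p)))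
      linarith
    · have h6 := min_le_right (1 : ℝ) (Real.exp (-(2 * x.d.l x.p)))
      have h7 := Real.exp_pos (-(2 * x.d.l x.p))
      linarith
  rw [ax_of ⟨z, hz⟩]
  set D : ℝ := 101 / 100 * (n * (3 * A + 1)) + 1 / 8 with hD
  set l : ℝ := x.d.l x.p with hl
  have m0 : 0 ≤ min 1 (Real.exp (-(2 * l))) := le_min zero_le_one (Real.exp_pos _).le
  have key : min 1 (Real.exp (-(3 * l))) ≤ min 1 (Real.exp (-(2 * l))) * Real.exp (-l) := by
    rcases min_choice (1 : ℝ) (Real.exp (-(2 * l))) with e | e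
    · rw [e, one_mul]
      rcases le_total 0 l with h | h
      · exact (min_le_right _ _).trans (Real.exp_le_exp.2 (by linarith))
      · exact (min_le_left _ _).trans (Real.one_le_exp (by linarith))
    · rw [e, ← Real.exp_add]
      refine (min_le_right _ _).trans (Real.exp_le_exp.2 (by linarith))
  have h4 : Real.exp (-(l + D)) = Real.exp (-l) * Real.exp (-D) := by
    rw [← Real.exp_add]; congr 1; ring
  rw [h4] at hr'
  have h5 : Real.exp D * Real.exp (-D) = 1 := by rw [← Real.exp_add, add_neg_cancel, Real.exp_zero]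
  have h6 : (1 / 2 * min 1 (Real.exp (-(2 * l)))) * (Real.exp (-l) * Real.exp (-D)) ≤
      kp x * H961.F.fr (fun x : Ix n A T => x.c) x z :=
    mul_le_mul hk hr' (by positivity) ((mul_nonneg (by norm_num) m0).trans hk)
  calc min 1 (Real.exp (-(3 * l))) ≤ min 1 (Real.exp (-(2 * l))) * Real.exp (-l) := key
    _ = 2 * Real.exp D * ((1 / 2 * min 1 (Real.exp (-(2 * l)))) *
        (Real.exp (-l) * Real.exp (-D))) := by
        calc _ = min 1 (Real.exp (-(2 * l))) * Real.exp (-l) *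
              (Real.exp D * Real.exp (-D)) := by rw [h5, mul_one]
          _ = _ := by ring
    _ ≤ _ := mul_le_mul_of_nonneg_left h6 (by positivity)

end Vale.Agent.P088.R2.H657.B1
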