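import Vale.Agent.P088.R2.H657.B1.Met
import Vale.Agent.P088.R2.H31.EP.Pack

/-!
# P088, zone B1: the tensors of the package in the graded classes of one slot

`k = 0` on the cells outside the ball `|x| < 2 R`, `k ≥ ε / R` otherwise.
-/

open Set Filter
open scoped ContDiff Topology

noncomputable section

set_option linter.unusedSectionVars false

namespace Vale.Agent.P088.R2.H657.B1

open Vale.Agent.P088.LR Vale.Agent.P088.HY Vale.Agent.P088.HY.T3 Vale.Agent.P088.HY.T4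
open Vale.Agent.P088.R2.H31.EP
open Vale.Agent.P088.R2.H464.B Vale.Agent.P088.R2.H968.B

variable {n : ℕ}

/-! ## Pointwise bounds -/

/-- Constants do not matter for the derivatives. -/
theorem it_sub_const {E : Type*} [NormedAddCommGroup E] [NormedSpace ℝ E] (f : E → ℝ) (c : ℝ)
    {m : ℕ} (hm : 1 ≤ m) (x : E) :
    ‖iteratedFDeriv ℝ m (fun x => f x - c) x‖ = ‖iteratedFDeriv ℝ m f x‖ := by
  obtain ⟨m, rfl⟩ : ∃ j, m = j + 1 := ⟨m - 1, by omega⟩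
  rw [← norm_iteratedFDeriv_fderiv, ← norm_iteratedFDeriv_fderiv]
  have e : fderiv ℝ (fun x => f x - c) = fderiv ℝ f := funext fun _ => fderiv_sub_const _
  rw [e]

section pt

variable {K : ℕ} {ε M σ R kap Gs : ℝ} {s₁ s₂ : MF n}

theorem it_le (h0 : 0 ≤ ε) (hR : 1 ≤ R) {f : V n → ℝ} {c : ℝ}
    (h : ∀ m ≤ K, ∀ x, ‖iteratedFDeriv ℝ m (fun x => f x - c) x‖ ≤ ε * R⁻¹ ^ m) {m : ℕ}
    (hm : 1 ≤ m) (hK : m ≤ K) (x : V n) : ‖iteratedFDeriv ℝ m f x‖ ≤ ε / R := by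
  rw [← it_sub_const f c hm x]
  refine (h m hK x).trans ?_
  have h1 : R⁻¹ ≤ 1 := inv_le_one_of_one_le₀ hR
  have h2 : 0 ≤ R⁻¹ := inv_nonneg.2 (by linarith)
  rw [div_eq_mul_inv]
  refine mul_le_mul_of_nonneg_left ?_ h0
  calc R⁻¹ ^ m ≤ R⁻¹ ^ 1 := pow_le_pow_of_le_one h2 h1 hm
    _ = R⁻¹ := pow_one _

/-- The derivatives of the tensors. -/
theorem rg_it₁ (h : Rg K ε M σ R kap Gs s₁ s₂) (h0 : 0 ≤ ε) (hR : 1 ≤ R) (i j : Fin n) {m : ℕ}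
    (hm : 1 ≤ m) (hK : m ≤ K) (x : V n) : ‖iteratedFDeriv ℝ m (fun w => s₁ w i j) x‖ ≤ ε / R :=
  it_le h0 hR (h.cl₁ i j) hm hK x

theorem rg_it₂ (h : Rg K ε M σ R kap Gs s₁ s₂) (h0 : 0 ≤ ε) (hR : 1 ≤ R) (i j : Fin n) {m : ℕ}
    (hm : 1 ≤ m) (hK : m ≤ K) (x : V n) : ‖iteratedFDeriv ℝ m (fun w => s₂ w i j) x‖ ≤ ε / R :=
  it_le h0 hR (h.cl₂ i j) hm hK x

theorem rg_nd₁ (h : Rg K ε M σ R kap Gs s₁ s₂) (x : V n) (i j : Fin n) :
    |s₁ x i j - (1 : Matrix (Fin n) (Fin n) ℝ) i j| ≤ ε := by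
  simpa using h.cl₁ i j 0 (Nat.zero_le _) x

theorem rg_nd₂ (h : Rg K ε M σ R kap Gs s₁ s₂) (x : V n) (i j : Fin n) :
    |s₂ x i j - (1 : Matrix (Fin n) (Fin n) ℝ) i j| ≤ ε := by
  simpa using h.cl₂ i j 0 (Nat.zero_le _) x

/-- The derivatives vanish outside the ball. -/
theorem it_off {f : V n → ℝ} {c : ℝ} {U : Set (V n)} (hU : IsOpen U) (h : ∀ w ∈ U, f w = c)
    {m : ℕ} (hm : 1 ≤ m) {x : V n} (hx : x ∈ U) : iteratedFDeriv ℝ m f x = 0 := by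
  have h1 : f =ᶠ[𝓝 x] fun _ => c := by
    filter_upwards [hU.mem_nhds hx] with w hw using h w hw
  rw [(h1.iteratedFDeriv ℝ m).eq_of_nhds, iteratedFDeriv_const_of_ne (by omega)]
  rfl

theorem rg_off (h : Rg K ε M σ R kap Gs s₁ s₂) {U : Set (V n)} (hU : IsOpen U)
    (ho : ∀ w ∈ U, w ∉ Eb (0 : V n) (2 * R)) (i j : Fin n) {m : ℕ} (hm : 1 ≤ m) {x : V n}
    (hx : x ∈ U) : iteratedFDeriv ℝ m (fun w => s₁ w i j) x = 0 ∧
      iteratedFDeriv ℝ m (fun w => s₂ w i j) x = 0 :=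
  ⟨it_off hU (c := (1 : Matrix (Fin n) (Fin n) ℝ) i j)
      (fun w hw => by rw [(h.of w (ho w hw)).1]) hm hx,
    it_off hU (c := (1 : Matrix (Fin n) (Fin n) ℝ) i j)
      (fun w hw => by rw [(h.of w (ho w hw)).2]) hm hx⟩

end pt

/-! ## Families -/

section fam

variable {α : Type*} {q : α → Cst} {d : α → Pk n} {M : α → Fin n → V n} {U : α → Set (V n)}
  {hU : ∀ x, IsOpen (U x)} {k : α → ℝ} {K : ℕ}

/-- The hypotheses on a family of packages. -/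
structure Mk (n : ℕ) (q : α → Cst) (d : α → Pk n) (M : α → Fin n → V n) (U : α → Set (V n))
    (k : α → ℝ) : Prop where
  ok : ∀ x, PkOk (q x) (d x)
  R1 : ∀ x, 1 ≤ (q x).R
  e0 : ∀ x, 0 ≤ (q x).ε
  en : ∀ x, n * (q x).ε ≤ 1 / 2
  hM : ∃ C, ∀ x i, ‖M x i‖ ≤ C
  k0 : ∀ x, 0 ≤ k x
  k1 : ∀ x, k x ≤ 1
  kk : ∀ x, (q x).ε / (q x).R ≤ k x ∨ ∀ w ∈ U x, w ∉ Eb (0 : V n) (2 * (q x).R)

theorem eps_le (h : Mk n q d M U k) (i : Fin n) (x : α) : (q x).ε ≤ 1 / (2 * n) := by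
  have hn : (0 : ℝ) < n := by exact_mod_cast i.pos
  rw [le_div_iff₀ (by positivity)]
  have := h.en x
  linarith

theorem Mk.cl₁ (h : Mk n q d M U k) (hU : ∀ x, IsOpen (U x)) (hK : K + 1 ≤ 12) :
    ∃ C, ∀ i j, ∀ m, 1 ≤ m → m ≤ K + 1 → ∀ x, ∀ w ∈ U x,
      ‖iteratedFDeriv ℝ m (fun w => (d x).s₁ w i j) w‖ ≤ C * k x := by
  refine ⟨1, fun i j m hm hmK x w hw => ?_⟩
  rw [one_mul]
  rcases h.kk x with h1 | h1
  · exact (rg_it₁ (h.ok x).rg (h.e0 x) (h.R1 x) i j hm (hmK.trans hK) w).trans h1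
  · rw [(rg_off (h.ok x).rg (hU x) h1 i j hm hw).1, norm_zero]
    exact h.k0 x

theorem Mk.cl₂ (h : Mk n q d M U k) (hU : ∀ x, IsOpen (U x)) (hK : K + 1 ≤ 12) :
    ∃ C, ∀ i j, ∀ m, 1 ≤ m → m ≤ K + 1 → ∀ x, ∀ w ∈ U x,
      ‖iteratedFDeriv ℝ m (fun w => (d x).s₂ w i j) w‖ ≤ C * k x := by
  refine ⟨1, fun i j m hm hmK x w hw => ?_⟩
  rw [one_mul]
  rcases h.kk x with h1 | h1
  · exact (rg_it₂ (h.ok x).rg (h.e0 x) (h.R1 x) i j hm (hmK.trans hK) w).trans h1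
  · rw [(rg_off (h.ok x).rg (hU x) h1 i j hm hw).2, norm_zero]
    exact h.k0 x

/-- **The first tensor and its inverse on the package.** -/
theorem Mk.met₁ (h : Mk n q d M U k) (hU : ∀ x, IsOpen (U x)) (hK : K + 1 ≤ 12) :
    (∀ i j l, (G1 M U hU).Gc K (cp k) (D1 M l fun x w => (d x).s₁ w i j)) ∧
    (∀ i j l, (G1 M U hU).Gc K (cp k) (D1 M l fun x w => gi (d x).s₁ w i j)) ∧
    (∀ i j, (G1 M U hU).Sm fun x w => gi (d x).s₁ w i j) ∧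
    (∀ i j, ∀ x, ∀ w ∈ U x, |gi (d x).s₁ w i j| ≤ 2) :=
  met_gc (fun x => (d x).s₁) M U hU k K (1 / (2 * n)) h.hM h.k0 h.k1
    (fun x i j => (h.ok x).rg.sm₁ i j) (h.cl₁ hU hK)
    (fun x w _ i j => (rg_nd₁ (h.ok x).rg w i j).trans (eps_le h i x)) (by
      rcases Nat.eq_zero_or_pos n with rfl | hn
      · norm_num
      · have : (0 : ℝ) < n := by exact_mod_cast hn
        refine le_of_eq ?_
        field_simp)

/-- **The second tensor and its inverse on the package.** -/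
theorem Mk.met₂ (h : Mk n q d M U k) (hU : ∀ x, IsOpen (U x)) (hK : K + 1 ≤ 12) :
    (∀ i j l, (G1 M U hU).Gc K (cp k) (D1 M l fun x w => (d x).s₂ w i j)) ∧
    (∀ i j l, (G1 M U hU).Gc K (cp k) (D1 M l fun x w => gi (d x).s₂ w i j)) ∧
    (∀ i j, (G1 M U hU).Sm fun x w => gi (d x).s₂ w i j) ∧
    (∀ i j, ∀ x, ∀ w ∈ U x, |gi (d x).s₂ w i j| ≤ 2) :=
  met_gc (fun x => (d x).s₂) M U hU k K (1 / (2 * n)) h.hM h.k0 h.k1
    (fun x i j => (h.ok x).rg.sm₂ i j) (h.cl₂ hU hK)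
    (fun x w _ i j => (rg_nd₂ (h.ok x).rg w i j).trans (eps_le h i x)) (by
      rcases Nat.eq_zero_or_pos n with rfl | hn
      · norm_num
      · have : (0 : ℝ) < n := by exact_mod_cast hn
        refine le_of_eq ?_
        field_simp)

/-- Smoothness on one slot. -/
theorem Mk.sm₁ (h : Mk n q d M U k) (hU : ∀ x, IsOpen (U x)) (i j : Fin n) :
    (G1 M U hU).Sm fun x w => (d x).s₁ w i j := fun x => ((h.ok x).rg.sm₁ i j).contDiffOn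

theorem Mk.sm₂ (h : Mk n q d M U k) (hU : ∀ x, IsOpen (U x)) (i j : Fin n) :
    (G1 M U hU).Sm fun x w => (d x).s₂ w i j := fun x => ((h.ok x).rg.sm₂ i j).contDiffOn

/-- **The difference of the tensors.** `A x ≥ ε min 1 e^(-100 lv)` on `U x`. -/
theorem Mk.dif (h : Mk n q d M U k) (hU : ∀ x, IsOpen (U x)) (hK : K ≤ 12) {A : α → ℝ}
    (A0 : ∀ x, 0 ≤ A x) (hA : ∃ C, ∀ x, ∀ w ∈ U x, (q x).ε * min 1 (Real.exp
      (-(100 * lv n (q x).σ (q x).R (d x).kap (d x).Gs w))) ≤ C * A x) (i j : Fin n) :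
    (G1 M U hU).Gc K (cp A) fun x w => (d x).s₂ w i j - (d x).s₁ w i j := by
  obtain ⟨C, hC⟩ := hA
  refine gc_of_it h.hM A0 ((h.sm₂ hU i j).sub (h.sm₁ hU i j)) ⟨C, fun m hm x w hw => ?_⟩
  refine ((h.ok x).rg.ds i j m (hm.trans hK) w).trans (le_trans ?_ (hC x w hw))
  have h1 : (q x).R⁻¹ ≤ 1 := inv_le_one_of_one_le₀ (h.R1 x)
  have h2 : 0 ≤ (q x).R⁻¹ := inv_nonneg.2 (by linarith [h.R1 x])
  have h3 : (q x).R⁻¹ ^ m ≤ 1 := pow_le_one₀ h2 h1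
  have h4 : 0 ≤ min 1 (Real.exp (-(100 * lv n (q x).σ (q x).R (d x).kap (d x).Gs w))) :=
    le_min zero_le_one (Real.exp_pos _).le
  calc (q x).ε * (q x).R⁻¹ ^ m *
        min 1 (Real.exp (-(100 * lv n (q x).σ (q x).R (d x).kap (d x).Gs w))) =
        (q x).R⁻¹ ^ m * ((q x).ε *
          min 1 (Real.exp (-(100 * lv n (q x).σ (q x).R (d x).kap (d x).Gs w)))) := by ring
    _ ≤ _ := mul_le_of_le_one_left (mul_nonneg (h.e0 x) h4) h3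

/-- Where `R² ≤ |x|²` the tensors are equal. -/
theorem Mk.eq (h : Mk n q d M U k) (x : α) {w : V n} (hw : (q x).R ^ 2 ≤ HY.sq w) :
    (d x).s₂ w = (d x).s₁ w := (h.ok x).rg.eq w hw

end fam

end Vale.Agent.P088.R2.H657.B1
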