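import Vale.Agent.P088.R2.H968.B.Asm3
import Vale.Agent.P088.R2.H961.F.HyPb
import Vale.Agent.P088.R2.H657.B1.Pkm
import Vale.Agent.P088.R2.H657.W.Fam

/-!
# P088, zone B1: the metric inputs of the true weight on a family of cells

`qt`: the coordinates `q = N (x - y)`; `Gm = Mᵀ g M - 1`, `g = s₁⁻¹`; `r² = |q|² + Gm(p) q q`.
-/

open Finset Set Filter
open scoped ContDiff Topology Matrix

noncomputable section

set_option linter.unusedSectionVars false

namespace Vale.Agent.P088.R2.H657.B1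

open Vale.Agent.P088.LR Vale.Agent.P088.HY Vale.Agent.P088.HY.T3 Vale.Agent.P088.HY.T4
open Vale.Agent.P088.R2.H31.EP hiding r2
open Vale.Agent.P088.R2.H464.B Vale.Agent.P088.R2.H968.B
open Vale.Agent.P088.R2.H961.F (CD Gf fr fe T_q T_qq fe_pos)
open Vale.Agent.P088.R2.H516.B (mu)

/-! ## The coordinates -/

section frame

variable {α : Type} {n : ℕ} (c : α → CD n)

/-- The coordinates of `x - y` in the frame. -/
def qt (i : Fin n) : α → VV n → ℝ := fun x z => ((c x).T.q i : VV n → ℝ) z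

theorem qt_eq (i : Fin n) (x : α) (z : VV n) :
    qt c i x z = ∑ k, (c x).N i k * (z.1 k - z.2 k) := T_q (c x) z i

/-- **The coordinates (M2).** -/
theorem qt_of (Z : α → Set (VV n)) (hZ : ∀ x, IsOpen (Z x)) : Qt (Gf c Z hZ) (fr c) (qt c) where
  sq i x := by
    have e : qt c i x = fun z => ∑ k, (c x).N i k * (z.1 k - z.2 k) := funext (qt_eq c i x)
    rw [e]
    exact (ContDiff.sum fun k _ => contDiff_const.mul
      (((contDiff_apply ℝ ℝ k).comp contDiff_fst).sub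
        ((contDiff_apply ℝ ℝ k).comp contDiff_snd))).contDiffOn
  a i j x z _ := by
    change fderiv ℝ (fun z => (c x).Fr.q j z) z ((c x).Fr.a i) = _
    have e : fderiv ℝ (fun z => (c x).Fr.q j z) z = (c x).Fr.q j := ContinuousLinearMap.fderiv _
    rw [e]
    exact (c x).Fr.aq i j
  b i j x z _ := by
    change fderiv ℝ (fun z => (c x).Fr.q j z) z ((c x).Fr.b i) = _
    have e : fderiv ℝ (fun z => (c x).Fr.q j z) z = (c x).Fr.q j := ContinuousLinearMap.fderiv _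
    rw [e]
    exact (c x).Fr.bq i j
  le i x z _ := by
    have he := fe_pos c x z
    unfold fe at he
    refine Real.abs_le_sqrt ?_
    rw [le_div_iff₀ he]
    change qt c i x z ^ 2 * _ ≤ 1 + ((c x).T.e : VV n → ℝ) z * ((c x).T.qq : VV n → ℝ) z
    rw [T_qq]
    have h1 : qt c i x z ^ 2 ≤ ∑ i, (∑ k, (c x).N i k * (z.1 k - z.2 k)) ^ 2 := by
      rw [qt_eq]
      exact Finset.single_le_sum (f := fun i => (∑ k, (c x).N i k * (z.1 k - z.2 k)) ^ 2)
        (fun i _ => sq_nonneg _) (Finset.mem_univ i)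
    nlinarith

/-! ## The metric in the frame -/

/-- `Mᵀ g M - 1`. -/
def Gm (s : α → MF n) (i j : Fin n) : α → V n → ℝ := fun x w =>
  ((c x).Mᵀ * gi (s x) w * (c x).M) i j - (1 : Matrix (Fin n) (Fin n) ℝ) i j

variable {c}

theorem mn (x : α) : (c x).M * (c x).N = 1 := mul_eq_one_comm.1 (c x).nm

theorem form_eq (A : Matrix (Fin n) (Fin n) ℝ) (v : V n) :
    ∑ i, ∑ j, A i j * v i * v j = v ⬝ᵥ (A *ᵥ v) := by
  simp only [dotProduct, Matrix.mulVec, Finset.mul_sum]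
  exact Finset.sum_congr rfl fun i _ => Finset.sum_congr rfl fun j _ => by ring

/-- **`r²` in the frame (M4).** -/
theorem r2_fρ (s : α → MF n) (x : α) (z : VV n) :
    Vale.Agent.P088.R2.H31.EP.r2 (gi (s x)) z = fρ (Gm c s) (qt c) x z := by
  set A : Matrix (Fin n) (Fin n) ℝ := gi (s x) ((1 / 2 : ℝ) • (z.1 + z.2)) with hA
  set v : V n := z.1 - z.2 with hv
  set w : V n := fun i => qt c i x z with hw
  have e1 : Vale.Agent.P088.R2.H31.EP.r2 (gi (s x)) z = v ⬝ᵥ (A *ᵥ v) := by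
    rw [← form_eq]
    have e : Vale.Agent.P088.R2.H31.EP.r2 (gi (s x)) z =
        2 * (1 / 2 * ∑ i, ∑ j, A i j * v i * v j) := rfl
    rw [e]; ring
  have e2 : w = (c x).N *ᵥ v := by
    funext i
    rw [hw]
    simp only
    rw [qt_eq]
    rfl
  have e3 : v = (c x).M *ᵥ w := by
    rw [e2, Matrix.mulVec_mulVec, mn, Matrix.one_mulVec]
  have e4 : fρ (Gm c s) (qt c) x z = w ⬝ᵥ (((c x).Mᵀ * A * (c x).M) *ᵥ w) := by
    rw [← form_eq]
    have e5 : ∀ i j, Gm c s i j x ((1 / 2 : ℝ) • (z.1 + z.2)) =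
        ((c x).Mᵀ * A * (c x).M) i j - (1 : Matrix (Fin n) (Fin n) ℝ) i j := fun i j => rfl
    have e6 : fρ (Gm c s) (qt c) x z = ∑ i, w i * w i + ∑ i, ∑ j,
        (((c x).Mᵀ * A * (c x).M) i j - (1 : Matrix (Fin n) (Fin n) ℝ) i j) * (w i * w j) := rfl
    rw [e6]
    have e7 : ∑ i, w i * w i = ∑ i, ∑ j, (1 : Matrix (Fin n) (Fin n) ℝ) i j * (w i * w j) := by
      refine Finset.sum_congr rfl fun i _ => ?_
      simp [Matrix.one_apply]
    rw [e7, ← Finset.sum_add_distrib]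
    refine Finset.sum_congr rfl fun i _ => ?_
    rw [← Finset.sum_add_distrib]
    exact Finset.sum_congr rfl fun j _ => by ring
  rw [e1, e4, ← Matrix.mulVec_mulVec, ← Matrix.mulVec_mulVec, ← e3, Matrix.dotProduct_mulVec w,
    Matrix.vecMul_transpose, ← e3]

end frame

/-! ## The classes -/

section cls

variable {α : Type} {n : ℕ} {c : α → CD n} {q : α → Cst} {d : α → Pk n} {p : α → V n}
  {U : α → Set (V n)} {k : α → ℝ} {L : ℝ}

/-- The hypotheses: `M Mᵀ = s₁(p₀)`, `U` near `p₀`, `k ≥ ε / R` or flat. -/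
structure Mq (c : α → CD n) (q : α → Cst) (d : α → Pk n) (p : α → V n) (U : α → Set (V n))
    (k : α → ℝ) (L : ℝ) : Prop where
  ok : ∀ x, PkOk (q x) (d x)
  R1 : ∀ x, 1 ≤ (q x).R
  e0 : ∀ x, 0 ≤ (q x).ε
  e1 : ∀ x, (q x).ε ≤ 1
  en : ∀ x, n * (q x).ε ≤ 1 / 2
  k0 : ∀ x, 0 ≤ k x
  k1 : ∀ x, k x ≤ 1
  fr : ∀ x, (c x).M * (c x).Mᵀ = (d x).s₁ (p x)
  L0 : ∀ x, ∀ w ∈ U x, ‖w - p x‖ ≤ L
  kk : ∀ x, (q x).ε / (q x).R ≤ k x ∨
    (∀ w ∈ U x, w ∉ Eb (0 : V n) (2 * (q x).R)) ∧ p x ∉ Eb (0 : V n) (2 * (q x).R)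

variable (h : Mq c q d p U k L)
include h

theorem Mq.M_le (x : α) (i j : Fin n) : |(c x).M i j| ≤ 2 := by
  have h1 := congrFun (congrFun (h.fr x) i) i
  rw [Matrix.mul_apply] at h1
  simp only [Matrix.transpose_apply] at h1
  have h2 := (abs_le.1 (rg_nd₁ (h.ok x).rg (p x) i i)).2
  rw [Matrix.one_apply_eq] at h2
  have h3 : (c x).M i j * (c x).M i j ≤ ∑ j, (c x).M i j * (c x).M i j :=
    Finset.single_le_sum (f := fun j => (c x).M i j * (c x).M i j)
      (fun j _ => mul_self_nonneg _) (Finset.mem_univ j)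
  have h4 := h.e1 x
  refine abs_le_of_sq_le_sq ?_ (by norm_num)
  nlinarith

theorem Mq.col_le (x : α) (i : Fin n) : ‖(c x).M.col i‖ ≤ 2 := by
  rw [pi_norm_le_iff_of_nonneg (by norm_num)]
  intro j
  rw [Real.norm_eq_abs]
  exact h.M_le x j i

theorem Mq.toMk : Mk n q d (fun x i => (c x).M.col i) U k where
  ok := h.ok
  R1 := h.R1
  e0 := h.e0
  en := h.en
  hM := ⟨2, h.col_le⟩
  k0 := h.k0
  k1 := h.k1
  kk x := (h.kk x).imp id fun a => a.1

/-- The metric is the identity at `p₀`. -/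
theorem Mq.at_p (x : α) : (c x).Mᵀ * gi (d x).s₁ (p x) * (c x).M = 1 := by
  have hu : IsUnit (c x).M.det := by
    have h1 : (c x).N.det * (c x).M.det = 1 := by
      rw [← Matrix.det_mul, (c x).nm, Matrix.det_one]
    exact IsUnit.of_mul_eq_one_right _ h1
  have hu' : IsUnit (c x).Mᵀ.det := by rwa [Matrix.det_transpose]
  have e : gi (d x).s₁ (p x) = (c x).Mᵀ⁻¹ * (c x).M⁻¹ := by
    unfold gi
    rw [← h.fr x, Matrix.mul_inv_rev]
  rw [e, ← Matrix.mul_assoc, Matrix.mul_nonsing_inv _ hu', Matrix.one_mul,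
    Matrix.nonsing_inv_mul _ hu]

/-- The inverse tensor varies little. -/
theorem Mq.gi_le (x : α) {w : V n} (hw : w ∈ U x) (i j : Fin n) :
    |gi (d x).s₁ w i j - gi (d x).s₁ (p x) i j| ≤ W.cG n 12 * |L| * k x := by
  have hL := h.L0 x w hw
  have cG := W.cG_nn n 12
  rcases h.kk x with h1 | h1
  · have hR : 0 < (q x).R := by linarith [h.R1 x]
    have t := (W.Rg.t1 (h.ok x).rg).inv hR (h.e1 x) (h.en x)
    have hb : ∀ w, ‖fderiv ℝ (fun x' => gi (d x).s₁ x' i j) w‖ ≤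
        W.cG n 12 * (q x).ε * (q x).R⁻¹ := fun w => by
      have h2 := t.cl i j 1 (by norm_num) w
      rw [it_sub_const (fun x' => gi (d x).s₁ x' i j) _ le_rfl, norm_iteratedFDeriv_one,
        pow_one] at h2
      exact h2
    have h3 := (convex_univ : Convex ℝ (univ : Set (V n))).norm_image_sub_le_of_norm_fderiv_le
      (f := fun x' => gi (d x).s₁ x' i j) (𝕜 := ℝ) (C := W.cG n 12 * (q x).ε * (q x).R⁻¹)
      (fun y _ => (t.sm i j).differentiable (by simp) y) (fun y _ => hb y)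
      (mem_univ (p x)) (mem_univ w)
    rw [Real.norm_eq_abs] at h3
    refine h3.trans ?_
    have h4 : 0 ≤ (q x).ε / (q x).R := div_nonneg (h.e0 x) hR.le
    calc W.cG n 12 * (q x).ε * (q x).R⁻¹ * ‖w - p x‖ =
          W.cG n 12 * ((q x).ε / (q x).R) * ‖w - p x‖ := by rw [div_eq_mul_inv]; ring
      _ ≤ W.cG n 12 * k x * |L| := mul_le_mul (mul_le_mul_of_nonneg_left h1 cG)
          (hL.trans (le_abs_self L)) (norm_nonneg _) (mul_nonneg cG (h.k0 x))
      _ = _ := by ring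
  · have e1 : gi (d x).s₁ w = gi (d x).s₁ (p x) := by
      unfold gi
      rw [((h.ok x).rg.of w (h1.1 w hw)).1, ((h.ok x).rg.of (p x) h1.2).1]
    rw [e1, sub_self, abs_zero]
    exact mul_nonneg (mul_nonneg cG (abs_nonneg L)) (h.k0 x)

variable (hU : ∀ x, IsOpen (U x)) {K : ℕ}

theorem Mq.gc_gi (hK : K + 1 ≤ 12) (i j : Fin n) :
    (G1 (fun x i => (c x).M.col i) U hU).Gc (K + 1) (cp k)
      (fun x w => gi (d x).s₁ w i j - gi (d x).s₁ (p x) i j) := by
  refine gc_G1 ⟨W.cG n 12 * |L|, fun x w hw => h.gi_le x hw i j⟩ fun l => ?_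
  refine ((h.toMk.met₁ hU hK).2.1 i j l).congr fun x w _ => ?_
  show fderiv ℝ (fun w => gi (d x).s₁ w i j - gi (d x).s₁ (p x) i j) w _ =
    fderiv ℝ (fun w => gi (d x).s₁ w i j) w _
  rw [fderiv_sub_const]

theorem Mq.sm_gi (i j : Fin n) : (G1 (fun x i => (c x).M.col i) U hU).Sm
    (fun x w => gi (d x).s₁ w i j - gi (d x).s₁ (p x) i j) :=
  ((h.toMk.met₁ (K := 0) hU (by norm_num)).2.2.1 i j).sub (Ge.Sm.const _)

theorem Mq.Gm_eq (i j : Fin n) (x : α) (w : V n) : Gm c (fun x => (d x).s₁) i j x w =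
    ∑ a, ∑ b, ((c x).M a i * (c x).M b j) *
      (gi (d x).s₁ w a b - gi (d x).s₁ (p x) a b) := by
  have e0 := congrFun (congrFun (h.at_p x) i) j
  have e1 : ∀ A : Matrix (Fin n) (Fin n) ℝ, ((c x).Mᵀ * A * (c x).M) i j =
      ∑ a, ∑ b, ((c x).M a i * (c x).M b j) * A a b := by
    intro A
    simp only [Matrix.mul_apply, Matrix.transpose_apply, Finset.sum_mul]
    rw [Finset.sum_comm]
    exact Finset.sum_congr rfl fun a _ => Finset.sum_congr rfl fun b _ => by ring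
  show ((c x).Mᵀ * gi (d x).s₁ w * (c x).M) i j - (1 : Matrix (Fin n) (Fin n) ℝ) i j = _
  rw [← e0, e1, e1, ← Finset.sum_sub_distrib]
  refine Finset.sum_congr rfl fun a _ => ?_
  rw [← Finset.sum_sub_distrib]
  exact Finset.sum_congr rfl fun b _ => by ring

/-- **The metric part (M3).** -/
theorem Mq.gc_Gm (hK : K + 1 ≤ 12) (i j : Fin n) :
    (G1 (fun x i => (c x).M.col i) U hU).Gc (K + 1) (cp k) (Gm c (fun x => (d x).s₁) i j) := by
  have t : ∀ a b, (G1 (fun x i => (c x).M.col i) U hU).Gc (K + 1) (cp k) fun x w =>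
      ((c x).M a i * (c x).M b j) * (gi (d x).s₁ w a b - gi (d x).s₁ (p x) a b) := fun a b => by
    have c1 : (G1 (fun x i => (c x).M.col i) U hU).Gc (K + 1) (cp fun _ => 1)
        fun x _ => (c x).M a i * (c x).M b j :=
      Ge.Gc.const (K + 1) _ (fun x => (c x).M a i * (c x).M b j) ⟨4, fun x w _ => by
        show |(c x).M a i * (c x).M b j| ≤ 4 * 1
        rw [abs_mul]
        have h1 := h.M_le x a i
        have h2 := h.M_le x b j
        have h3 := abs_nonneg ((c x).M a i)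
        have h4 := abs_nonneg ((c x).M b j)
        nlinarith⟩
    have c2 := cp_mul (fun _ => zero_le_one) h.k0 c1 (h.gc_gi hU hK a b) (Ge.Sm.const _)
      (h.sm_gi hU a b)
    exact cp_mono (C := 1) (fun x => by have := h.k0 x; positivity) c2 fun x =>
      le_of_eq (by ring)
  have st : ∀ a b, (G1 (fun x i => (c x).M.col i) U hU).Sm fun x w =>
      ((c x).M a i * (c x).M b j) * (gi (d x).s₁ w a b - gi (d x).s₁ (p x) a b) := fun a b =>
    (Ge.Sm.const _).mul (h.sm_gi hU a b)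
  exact (Ge.Gc.sum Finset.univ (fun a _ => Ge.Gc.sum Finset.univ (fun b _ => t a b)
    fun b _ => st a b) fun a _ => Ge.Sm.sum Finset.univ fun b _ => st a b).congr
    fun x w _ => h.Gm_eq i j x w

theorem Mq.sm_Gm (i j : Fin n) :
    (G1 (fun x i => (c x).M.col i) U hU).Sm (Gm c (fun x => (d x).s₁) i j) :=
  (Ge.Sm.sum Finset.univ fun a _ => Ge.Sm.sum Finset.univ fun b _ =>
    (Ge.Sm.const fun x => (c x).M a i * (c x).M b j).mul (h.sm_gi hU a b)).congr
    fun x w _ => h.Gm_eq i j x w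

end cls

end Vale.Agent.P088.R2.H657.B1
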